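import Mathlib

set_option autoImplicit false

namespace Crest.Agent.H5.Det

open Finset

lemma ringA {Λ : Type*} [Ring Λ] (p : ℕ) (hp : IsNilpotent (p : Λ)) (a b y V h : Λ)
    (lam μ κ : ℤ) (hab : a * b = 1 + p * y) (hl : μ * lam = 1 + p * κ)
    (hc : V * h * (1 - b * a) * V = lam * V) :
    ∃ β γ δ : Λ, a * β = 1 ∧ a * γ = 0 ∧ δ * β = 0 ∧ δ * γ = V := by
  have hu : ∀ x : Λ, ∃ xi : Λ, (1 + p * x) * xi = 1 := fun x =>
    (((Nat.cast_commute p x).isNilpotent_mul_right hp).isUnit_one_add).exists_right_inv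
  obtain ⟨u1, hu1⟩ := hu y
  set β := b * u1 with hβ
  have h1 : a * β = 1 := by rw [hβ, ← mul_assoc, hab, hu1]
  set c := 1 - β * a with hcdef
  have h2 : a * c = 0 := by rw [hcdef, mul_sub, ← mul_assoc, h1]; simp
  have h3 : c * β = 0 := by rw [hcdef, sub_mul, mul_assoc, h1]; simp
  have h4 : c * c = c := by
    conv_lhs => enter [2]; rw [hcdef]
    rw [mul_sub, ← mul_assoc, h3]; simp
  have h5 : c = (1 - b * a) + p * (b * y * u1 * a) := by
    have : u1 = 1 - p * (y * u1) := by rw [← hu1]; noncomm_ring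
    rw [hcdef, hβ]
    conv_lhs => rw [this]
    rw [mul_sub b, ← mul_assoc b, ← (Nat.cast_commute p b).eq]
    noncomm_ring
  obtain ⟨u2, hu2⟩ := hu (κ + μ * (h * (b * y * u1 * a) * V))
  have h6 : μ * V * h * c * V = V * (1 + p * (κ + μ * (h * (b * y * u1 * a) * V))) := by
    have e1 : (μ : Λ) * lam = 1 + p * κ := by exact_mod_cast congrArg (Int.cast : ℤ → Λ) hl
    have c1 := (Nat.cast_commute p V).eq
    have c2 := (Nat.cast_commute p h).eq
    have c3 := (Int.cast_commute μ V).eq
    have c4 := (Int.cast_commute κ V).eq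
    have c5 := (Nat.cast_commute p (μ : Λ)).eq
    set x := b * y * u1 * a
    calc μ * V * h * c * V = μ * (V * h * (1 - b * a) * V) + μ * V * (h * p) * x * V := by
          rw [h5]; noncomm_ring
      _ = (μ * lam) * V + μ * (V * p) * h * x * V := by rw [hc, ← c2]; noncomm_ring
      _ = V + p * (κ * V) + (μ * V) * p * h * x * V := by rw [e1]; noncomm_ring
      _ = V + (p * V) * κ + V * (μ * p) * h * x * V := by rw [c3, c4]; noncomm_ring
      _ = _ := by rw [c1, ← c5]; noncomm_ring
  refine ⟨β, c * V * u2, μ * V * h * c, h1, ?_, ?_, ?_⟩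
  · rw [← mul_assoc, ← mul_assoc, h2]; simp
  · rw [mul_assoc, h3]; simp
  · calc μ * V * h * c * (c * V * u2) = μ * V * h * (c * c) * V * u2 := by noncomm_ring
      _ = V := by rw [h4, h6, mul_assoc, hu2, mul_one]

lemma red_surj (G : Type*) [Group G] (N : ℕ) :
    Function.Surjective (MonoidAlgebra.mapRingHom G (Int.castRingHom (ZMod N))) := by
  rw [MonoidAlgebra.coe_mapRingHom]
  exact MonoidAlgebra.map_surjective _ ZMod.intCast_surjective

lemma red_ker {G : Type*} [Group G] (N : ℕ) (x : MonoidAlgebra ℤ G)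
    (h : MonoidAlgebra.mapRingHom G (Int.castRingHom (ZMod N)) x = 0) :
    ∃ w, x = (N : MonoidAlgebra ℤ G) * w := by
  refine ⟨MonoidAlgebra.ofCoeff (x.coeff.mapRange (fun c => c / N) (by simp)), ?_⟩
  ext g
  have h1 := congrArg (fun z => z.coeff g) h
  simp only [MonoidAlgebra.coeff_mapRingHom, eq_intCast] at h1
  have h2 : (N : ℤ) ∣ x.coeff g := (ZMod.intCast_zmod_eq_zero_iff_dvd _ _).1 (by simpa using h1)
  rw [MonoidAlgebra.natCast_def, MonoidAlgebra.coeff_single_one_mul]
  simp [Int.mul_ediv_cancel' h2]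

/-- lamp permutations -/
def lampPerm {G : Type} : Multiplicative (G →₀ ZMod 2) →* Equiv.Perm (G × ZMod 2) where
  toFun f :=
    { toFun := fun x => (x.1, x.2 + f.toAdd x.1)
      invFun := fun x => (x.1, x.2 - f.toAdd x.1)
      left_inv := fun x => by simp
      right_inv := fun x => by simp }
  map_one' := by ext x <;> simp
  map_mul' f g := by
    ext x
    · simp
    · simp; ring

/-- translation permutations -/
def transPerm {G : Type} [Group G] : G →* Equiv.Perm (G × ZMod 2) where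
  toFun g :=
    { toFun := fun x => (g * x.1, x.2)
      invFun := fun x => (g⁻¹ * x.1, x.2)
      left_inv := fun x => by simp
      right_inv := fun x => by simp }
  map_one' := by ext x <;> simp
  map_mul' f g := by ext x <;> simp [mul_assoc]

lemma trans_lamp {G : Type} [Group G] (g : G) :
    transPerm g * lampPerm (Multiplicative.ofAdd (Finsupp.single (1 : G) (1 : ZMod 2)))
      = lampPerm (Multiplicative.ofAdd (Finsupp.single g 1)) * transPerm g := by
  classical
  ext x
  · simp [transPerm, lampPerm]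
  · simp [transPerm, lampPerm, Finsupp.single_apply, eq_comm]

lemma exists_wreath (G : Type) [Group G] (hG : Group.FG G) :
    ∃ (G' : Type) (_ : Group G') (A : Type) (_ : CommGroup A) (φ : G →* G') (ψ : A →* G')
      (l : G → A) (χ : A →* ℤ), Group.FG G' ∧ Function.Injective ψ ∧ (∀ a : A, a * a = 1) ∧
      (∀ g, φ g * ψ (l 1) = ψ (l g) * φ g) ∧ χ (l 1) = -1 ∧ ∀ g, g ≠ 1 → χ (l g) = 1 := by
  classical
  obtain ⟨S, hS, hSf⟩ := Group.fg_iff.1 hG
  set l : G → Multiplicative (G →₀ ZMod 2) :=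
    fun g => Multiplicative.ofAdd (Finsupp.single g 1) with hl
  set K : Subgroup (Equiv.Perm (G × ZMod 2)) :=
    Subgroup.closure (insert (lampPerm (l 1)) (transPerm '' S)) with hK
  have hφ : ∀ g : G, transPerm g ∈ K := by
    intro g
    have : (Subgroup.closure S).map transPerm ≤ K := by
      rw [MonoidHom.map_closure]
      exact Subgroup.closure_mono (Set.subset_insert _ _)
    exact this ⟨g, by rw [hS]; trivial, rfl⟩
  have hl1 : ∀ g : G, lampPerm (l g) ∈ K := by
    intro g
    have : lampPerm (l g) = transPerm g * lampPerm (l 1) * (transPerm g)⁻¹ := by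
      rw [hl, trans_lamp]; simp
    rw [this]
    exact K.mul_mem (K.mul_mem (hφ g) (Subgroup.subset_closure (Set.mem_insert _ _)))
      (K.inv_mem (hφ g))
  have hψ : ∀ f, lampPerm f ∈ K := by
    intro f
    have : ∀ f : G →₀ ZMod 2, lampPerm (Multiplicative.ofAdd f) ∈ K := by
      intro f
      induction f using Finsupp.induction_linear with
      | zero => simp
      | add f g hf hg => rw [ofAdd_add, map_mul]; exact K.mul_mem hf hg
      | single g c =>
        have : c = 0 ∨ c = 1 := by revert c; decide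
        rcases this with rfl | rfl
        · simp
        · exact hl1 g
    exact this f.toAdd
  let χ : Multiplicative (G →₀ ZMod 2) →* ℤ :=
    { toFun := fun f => if f.toAdd 1 = 0 then 1 else -1
      map_one' := by simp
      map_mul' := fun f g => by
        have key : ∀ s t : ZMod 2, (if s + t = 0 then (1 : ℤ) else -1)
            = (if s = 0 then 1 else -1) * (if t = 0 then 1 else -1) := by decide
        exact key (f.toAdd 1) (g.toAdd 1) }
  refine ⟨K, inferInstance, Multiplicative (G →₀ ZMod 2), inferInstance,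
    transPerm.codRestrict K hφ, lampPerm.codRestrict K hψ, l, χ, ?_, ?_, ?_, ?_, ?_, ?_⟩
  · rw [Group.fg_iff_subgroup_fg, Subgroup.fg_iff]
    exact ⟨_, rfl, (hSf.image _).insert _⟩
  · intro f g h
    have h1 : lampPerm f = lampPerm g := congrArg Subtype.val h
    apply Multiplicative.toAdd.injective
    ext x
    have := congrArg (fun σ : Equiv.Perm (G × ZMod 2) => (σ (x, 0)).2) h1
    simpa [lampPerm] using this
  · intro a
    apply Multiplicative.toAdd.injective
    ext x
    simp only [toAdd_mul, Finsupp.add_apply, toAdd_one, Finsupp.zero_apply]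
    generalize a.toAdd x = s
    revert s; decide
  · intro g
    exact Subtype.ext (trans_lamp g)
  · simp [χ, hl]
  · intro g hg
    simp [χ, hl, hg]

open MonoidAlgebra in
theorem alg_main (G : Type) [Group G] (hG : Group.FG G) (p : ℕ) (hp : p.Prime) (hodd : Odd p)
    (a b : MonoidAlgebra (ZMod p) G) (hab : a * b = 1) (hba : b * a ≠ 1) :
    ∃ (G' : Type) (_ : Group G') (N q t : ℕ) (W α β γ δ w1 w2 w3 w4 : MonoidAlgebra ℤ G'),
      Group.FG G' ∧ 0 < q ∧ 0 < t ∧ N = 1 + q * t ∧ W * W = q * W ∧ W ≠ 0 ∧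
      (∀ g, W.coeff g⁻¹ = W.coeff g) ∧ α * β = 1 + N * w1 ∧ α * γ = N * w2 ∧ δ * β = N * w3 ∧
      δ * γ = -(t * W) + N * w4 := by
  classical
  obtain ⟨G', _, A, _, φ, ψ, l, χ, hfg, hψ, hsq, hrel, hχ1, hχ⟩ := exists_wreath G hG
  obtain ⟨a', rfl⟩ := red_surj G p a
  obtain ⟨b', rfl⟩ := red_surj G p b
  obtain ⟨y, hy⟩ := red_ker p (a' * b' - 1) (by rw [map_sub, map_mul, hab, map_one, sub_self])
  set c0 := 1 - b' * a' with hc0
  obtain ⟨g0, hg0⟩ : ∃ g0, ¬ (p : ℤ) ∣ c0.coeff g0 := by
    by_contra hcon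
    push Not at hcon
    apply hba
    have : mapRingHom G (Int.castRingHom (ZMod p)) c0 = 0 := by
      ext g
      rw [coeff_mapRingHom, eq_intCast]
      simpa using (ZMod.intCast_zmod_eq_zero_iff_dvd _ _).2 (hcon g)
    rw [hc0, map_sub, map_mul, map_one, sub_eq_zero] at this
    exact this.symm
  obtain ⟨μ, κ, hμ⟩ : ∃ μ κ : ℤ, μ * c0.coeff g0 = 1 + p * κ := by
    have : IsCoprime (p : ℤ) (c0.coeff g0) :=
      ((Nat.prime_iff_prime_int.1 hp).irreducible.coprime_iff_not_dvd).2 hg0
    obtain ⟨u, v, huv⟩ := this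
    exact ⟨v, -u, by linear_combination huv⟩
  set S := (c0.coeff.support.image (fun g => g0⁻¹ * g)).erase 1 with hS
  set e : A → MonoidAlgebra ℤ A := fun x => single x 1 with he
  have he2 : ∀ x, e x * e x = 1 := fun x => by
    simp only [he, single_mul_single, hsq, mul_one]; rfl
  set WA : MonoidAlgebra ℤ A := (1 - e (l 1)) * ∏ g ∈ S, (1 + e (l g)) with hWA
  set q := 2 ^ (S.card + 1) with hq
  have hWA2 : WA * WA = q * WA := by
    have k1 : (1 - e (l 1)) * (1 - e (l 1)) = 2 * (1 - e (l 1)) := by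
      linear_combination he2 (l 1)
    have k2 : (∏ g ∈ S, (1 + e (l g))) * ∏ g ∈ S, (1 + e (l g))
        = 2 ^ S.card * ∏ g ∈ S, (1 + e (l g)) := by
      rw [← prod_mul_distrib, ← prod_const, ← prod_mul_distrib]
      exact prod_congr rfl fun g _ => by linear_combination he2 (l g)
    rw [hWA, hq]
    push_cast
    calc _ = ((1 - e (l 1)) * (1 - e (l 1))) *
          ((∏ g ∈ S, (1 + e (l g))) * ∏ g ∈ S, (1 + e (l g))) := by ring
      _ = _ := by rw [k1, k2]; ring
  have hWA0 : WA ≠ 0 := by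
    intro h0
    have := congrArg (MonoidAlgebra.lift ℤ ℤ A χ) h0
    rw [hWA, map_mul, map_prod, map_zero] at this
    have k : ∀ g ∈ S, MonoidAlgebra.lift ℤ ℤ A χ (1 + e (l g)) = 2 := by
      intro g hg
      rw [map_add, map_one, he, lift_single, hχ g (ne_of_mem_erase hg)]; simp
    rw [prod_congr rfl k, map_sub, map_one, he, lift_single, hχ1] at this
    simp at this
  set Ψ := mapDomainRingHom ℤ ψ with hΨ
  set Φ := mapDomainRingHom ℤ φ with hΦ
  have hΨs : ∀ x c, Ψ (single x c) = single (ψ x) c := fun x c => by simp [hΨ]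
  have hΦs : ∀ x c, Φ (single x c) = single (φ x) c := fun x c => by simp [hΦ]
  set W := Ψ WA with hW
  have hW2 : W * W = q * W := by rw [hW, ← map_mul, hWA2, map_mul, map_natCast]
  have hWg : ∀ g ∈ S, W * single (φ g) 1 * W = 0 := by
    intro g hg
    have k1 : W = Ψ ((1 - e (l 1)) * ∏ g ∈ S.erase g, (1 + e (l g))) * (1 + Ψ (e (l g))) := by
      rw [hW, hWA, ← prod_erase_mul S _ hg, ← mul_assoc, map_mul, map_add, map_one]
    have k2 : W = (1 - Ψ (e (l 1))) * Ψ (∏ g ∈ S, (1 + e (l g))) := by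
      rw [hW, hWA, map_mul, map_sub, map_one]
    have k3 : Ψ (e (l g)) * single (φ g) 1 = single (φ g) 1 * Ψ (e (l 1)) := by
      simp only [he, hΨs, single_mul_single, hrel]
    have k4 : Ψ (e (l 1)) * Ψ (e (l 1)) = 1 := by rw [← map_mul, he2, map_one]
    have k5 : (1 + Ψ (e (l g))) * single (φ g) 1 * (1 - Ψ (e (l 1))) = 0 := by
      rw [add_mul, k3, one_mul, add_mul, mul_assoc, mul_sub (Ψ (e (l 1))), k4]
      noncomm_ring
    conv_lhs => enter [1, 1]; rw [k1]
    conv_lhs => enter [2]; rw [k2]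
    calc _ = Ψ ((1 - e (l 1)) * ∏ g ∈ S.erase g, (1 + e (l g))) *
          ((1 + Ψ (e (l g))) * single (φ g) 1 * (1 - Ψ (e (l 1)))) *
          Ψ (∏ g ∈ S, (1 + e (l g))) := by simp only [mul_assoc]
      _ = 0 := by rw [k5]; simp
  have hWc : W * single (φ g0⁻¹) 1 * Φ c0 * W = (c0.coeff g0 : MonoidAlgebra ℤ G') * (W * W) := by
    have k1 : Φ c0 = ∑ g ∈ c0.coeff.support, single (φ g) (c0.coeff g) := by
      conv_lhs => rw [← sum_coeff_single c0, Finsupp.sum, map_sum]
      simp only [hΦs]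
    have hg0s : g0 ∈ c0.coeff.support := by
      rw [Finsupp.mem_support_iff]
      intro h; rw [h] at hg0; exact hg0 (dvd_zero _)
    have k2 : ∀ g : G, W * single (φ g0⁻¹) 1 * single (φ g) (c0.coeff g) * W
        = (c0.coeff g : MonoidAlgebra ℤ G') * (W * single (φ (g0⁻¹ * g)) 1 * W) := by
      intro g
      have : single (φ g0⁻¹) 1 * single (φ g) (c0.coeff g)
          = (c0.coeff g : MonoidAlgebra ℤ G') * single (φ (g0⁻¹ * g)) 1 := by
        rw [intCast_def, single_mul_single, single_mul_single]; simp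
      rw [mul_assoc W, this, ← mul_assoc W, ← (Int.cast_commute _ W).eq]
      simp only [mul_assoc]
    rw [k1, mul_sum, sum_mul, sum_eq_single g0]
    · rw [k2]; simp [← one_def]
    · intro g hg hne
      rw [k2, hWg, mul_zero]
      rw [hS, mem_erase]
      exact ⟨fun h => hne (by rw [inv_mul_eq_one] at h; exact h.symm), mem_image_of_mem _ hg⟩
    · intro h; exact (h hg0s).elim
  have hqpos : 0 < q := by positivity
  have hcop : Nat.Coprime p q := (Nat.coprime_two_right.2 hodd).pow_right _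
  set r := Nat.totient q with hr
  have hr0 : 0 < r := Nat.totient_pos.2 hqpos
  have hN1 : 1 < p ^ r := Nat.one_lt_pow hr0.ne' hp.one_lt
  obtain ⟨t, ht⟩ : q ∣ p ^ r - 1 :=
    (Nat.modEq_iff_dvd' hN1.le).1 (Nat.ModEq.pow_totient hcop).symm
  have hN : p ^ r = 1 + q * t := by omega
  have ht0 : 0 < t := by
    rcases Nat.eq_zero_or_pos t with rfl | h
    · omega
    · exact h
  set ρ := mapRingHom G' (Int.castRingHom (ZMod (p ^ r))) with hρ
  have hN0 : ((p ^ r : ℕ) : MonoidAlgebra (ZMod (p ^ r)) G') = 0 := by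
    rw [natCast_def, ZMod.natCast_self, single_zero]
  have hnil : IsNilpotent (p : MonoidAlgebra (ZMod (p ^ r)) G') := ⟨r, by exact_mod_cast hN0⟩
  have hqt : (q : MonoidAlgebra (ZMod (p ^ r)) G') * t = -1 := by
    have : ((1 + q * t : ℕ) : MonoidAlgebra (ZMod (p ^ r)) G') = 0 := by rw [← hN]; exact hN0
    push_cast at this
    exact eq_neg_of_add_eq_zero_right this
  obtain ⟨β, γ, δ, h1, h2, h3, h4⟩ := ringA p hnil (ρ (Φ a')) (ρ (Φ b')) (ρ (Φ y))
    (ρ (-(t * W))) (ρ (single (φ g0⁻¹) 1)) (c0.coeff g0) μ κ (by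
      rw [← map_mul, ← map_mul, sub_eq_iff_eq_add'.1 hy]; simp) hμ (by
      have k1 : 1 - ρ (Φ b') * ρ (Φ a') = ρ (Φ c0) := by simp [hc0]
      have k2 : -((t : MonoidAlgebra ℤ G') * W) * single (φ g0⁻¹) 1 * Φ c0
            * -((t : MonoidAlgebra ℤ G') * W)
          = (c0.coeff g0 : MonoidAlgebra ℤ G') * ((q : MonoidAlgebra ℤ G') * (t : MonoidAlgebra ℤ G'))
            * ((t : MonoidAlgebra ℤ G') * W) := by
        have c1 := (Nat.cast_commute t (W * single (φ g0⁻¹) 1 * Φ c0)).eq
        have c2 := (Nat.cast_commute t (c0.coeff g0 : MonoidAlgebra ℤ G')).eq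
        have c3 := (Nat.cast_commute t (q : MonoidAlgebra ℤ G')).eq
        generalize (t : MonoidAlgebra ℤ G') = T at c1 c2 c3 ⊢
        calc _ = T * ((W * single (φ g0⁻¹) 1 * Φ c0) * T) * W := by noncomm_ring
          _ = T * T * (W * single (φ g0⁻¹) 1 * Φ c0 * W) := by rw [← c1]; noncomm_ring
          _ = T * (T * c0.coeff g0) * q * W := by rw [hWc, hW2]; noncomm_ring
          _ = T * (c0.coeff g0 * T) * q * W := by rw [c2]
          _ = (T * c0.coeff g0) * (T * q) * W := by simp only [mul_assoc]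
          _ = (c0.coeff g0 * T) * (q * T) * W := by rw [c2, c3]
          _ = c0.coeff g0 * (T * q) * (T * W) := by simp only [mul_assoc]
          _ = _ := by rw [c3]
      rw [k1, ← map_mul, ← map_mul, ← map_mul, k2, map_mul, map_mul, map_mul, map_intCast,
        map_natCast, map_natCast, hqt, map_neg]
      noncomm_ring)
  obtain ⟨β', rfl⟩ := red_surj G' (p ^ r) β
  obtain ⟨γ', rfl⟩ := red_surj G' (p ^ r) γ
  obtain ⟨δ', rfl⟩ := red_surj G' (p ^ r) δ
  obtain ⟨w1, k1⟩ := red_ker (p ^ r) (Φ a' * β' - 1) (by rw [map_sub, map_mul, h1]; simp)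
  obtain ⟨w2, k2⟩ := red_ker (p ^ r) (Φ a' * γ') (by rw [map_mul, h2])
  obtain ⟨w3, k3⟩ := red_ker (p ^ r) (δ' * β') (by rw [map_mul, h3])
  obtain ⟨w4, k4⟩ := red_ker (p ^ r) (δ' * γ' - -((t : MonoidAlgebra ℤ G') * W)) (by rw [map_sub, map_mul, h4, sub_self])
  refine ⟨G', inferInstance, p ^ r, q, t, W, Φ a', β', γ', δ', w1, w2, w3, w4, hfg, hqpos, ht0, hN,
    hW2, ?_, ?_, sub_eq_iff_eq_add'.1 k1, k2, k3, sub_eq_iff_eq_add'.1 k4⟩
  · intro h0
    apply hWA0
    apply mapDomain_injective hψ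
    rw [mapDomain_zero]
    exact h0
  · intro g
    rw [hW]
    induction WA using MonoidAlgebra.induction_linear with
    | zero => simp
    | add x y hx hy => simp only [map_add, coeff_add, Finsupp.add_apply, hx, hy]
    | single x c =>
      rw [hΨs, coeff_single, Finsupp.single_apply, Finsupp.single_apply]
      have : (ψ x)⁻¹ = ψ x := inv_eq_of_mul_eq_one_right (by rw [← map_mul, hsq, map_one])
      congr 1
      rw [← inv_eq_iff_eq_inv, this]

end Crest.Agent.H5.Det
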