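import Mathlib

set_option autoImplicit false

namespace Crest.Agent.H5.Det

open Finset

variable {A : Type*} [CStarAlgebra A] [PartialOrder A] [StarOrderedRing A] [Nontrivial A]

/-- self-adjoint with spectrum in `[ε, C]` -/
def Bd (ε C : ℝ) (z : A) : Prop := IsSelfAdjoint z ∧ ∀ x ∈ spectrum ℝ z, ε ≤ x ∧ x ≤ C

omit [Nontrivial A] in
lemma Bd.convex {ε C : ℝ} {z0 z1 : A} (h0 : Bd ε C z0) (h1 : Bd ε C z1) {t : ℝ}
    (ht : t ∈ Set.Icc (0 : ℝ) 1) : Bd ε C (z0 + t • (z1 - z0)) := by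
  have e : z0 + t • (z1 - z0) = (1 - t) • z0 + t • z1 := by
    rw [smul_sub, sub_smul, one_smul]; abel
  have hsa : IsSelfAdjoint (z0 + t • (z1 - z0)) :=
    h0.1.add ((IsSelfAdjoint.all t).smul (h1.1.sub h0.1))
  have e2 : ∀ r : ℝ, algebraMap ℝ A r = (1 - t) • algebraMap ℝ A r + t • algebraMap ℝ A r := by
    intro r; rw [← add_smul]; simp
  have ht1 : 0 ≤ 1 - t := sub_nonneg.2 ht.2
  refine ⟨hsa, fun x hx => ⟨?_, ?_⟩⟩
  · refine (algebraMap_le_iff_le_spectrum (a := z0 + t • (z1 - z0)) hsa).1 ?_ x hx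
    rw [e, e2]
    exact add_le_add
      (smul_le_smul_of_nonneg_left
        ((algebraMap_le_iff_le_spectrum h0.1).2 fun y hy => (h0.2 y hy).1) ht1)
      (smul_le_smul_of_nonneg_left
        ((algebraMap_le_iff_le_spectrum h1.1).2 fun y hy => (h1.2 y hy).1) ht.1)
  · refine (le_algebraMap_iff_spectrum_le (a := z0 + t • (z1 - z0)) hsa).1 ?_ x hx
    rw [e, e2]
    exact add_le_add
      (smul_le_smul_of_nonneg_left
        ((le_algebraMap_iff_spectrum_le h0.1).2 fun y hy => (h0.2 y hy).2) ht1)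
      (smul_le_smul_of_nonneg_left
        ((le_algebraMap_iff_spectrum_le h1.1).2 fun y hy => (h1.2 y hy).2) ht.1)

lemma exists_Bd_one {z : A} (hz : IsStrictlyPositive z) :
    ∃ ε C : ℝ, 0 < ε ∧ Bd ε C z := by
  obtain ⟨r, hr, h⟩ := (CFC.exists_pos_algebraMap_le_iff hz.isSelfAdjoint).2
    (fun x hx => hz.spectrum_pos hx)
  obtain ⟨C, hC⟩ := (spectrum.isBounded (𝕜 := ℝ) z).bddAbove
  exact ⟨r, C, hr, hz.isSelfAdjoint, fun x hx =>
    ⟨(algebraMap_le_iff_le_spectrum hz.isSelfAdjoint).1 h x hx, hC hx⟩⟩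

lemma exists_Bd {z0 z1 : A} (h0 : IsStrictlyPositive z0) (h1 : IsStrictlyPositive z1) :
    ∃ ε C : ℝ, 0 < ε ∧ ε < C ∧ Bd ε C z0 ∧ Bd ε C z1 := by
  obtain ⟨ε0, C0, k0, b0⟩ := exists_Bd_one h0
  obtain ⟨ε1, C1, k1, b1⟩ := exists_Bd_one h1
  refine ⟨min ε0 ε1, max (max C0 C1) (ε0 + 1), lt_min k0 k1, ?_, ⟨b0.1, fun x hx => ⟨?_, ?_⟩⟩,
    ⟨b1.1, fun x hx => ⟨?_, ?_⟩⟩⟩
  · exact lt_of_le_of_lt (min_le_left _ _) (lt_of_lt_of_le (lt_add_one _) (le_max_right _ _))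
  · exact (min_le_left _ _).trans (b0.2 x hx).1
  · exact (b0.2 x hx).2.trans ((le_max_left _ _).trans (le_max_left _ _))
  · exact (min_le_right _ _).trans (b1.2 x hx).1
  · exact (b1.2 x hx).2.trans ((le_max_right _ _).trans (le_max_left _ _))

omit [PartialOrder A] [StarOrderedRing A] [Nontrivial A] in
lemma cfc_v {z : A} (hz : IsSelfAdjoint z) (C : ℝ) :
    cfc (fun x : ℝ => 1 - C⁻¹ * x) z = 1 - C⁻¹ • z := by
  rw [cfc_sub _ _ z, cfc_const_one ℝ z, cfc_const_mul_id _ z]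

omit [PartialOrder A] [StarOrderedRing A] [Nontrivial A] in
lemma abs_v {ε C x : ℝ} (hε : 0 < ε) (hC : ε < C) (h1 : ε ≤ x) (h2 : x ≤ C) :
    |1 - C⁻¹ * x| ≤ 1 - ε / C := by
  have hC0 : 0 < C := hε.trans hC
  have k1 : C⁻¹ * x ≤ 1 := by rw [inv_mul_le_iff₀ hC0]; linarith
  have k2 : ε / C ≤ C⁻¹ * x := by
    rw [div_eq_inv_mul]; exact mul_le_mul_of_nonneg_left h1 (by positivity)
  rw [abs_of_nonneg (by linarith)]
  linarith

omit [PartialOrder A] [StarOrderedRing A] [Nontrivial A] in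
lemma Bd.norm_v {ε C : ℝ} {z : A} (h : Bd ε C z) (hε : 0 < ε) (hC : ε < C) :
    ‖1 - C⁻¹ • z‖ ≤ 1 - ε / C := by
  rw [← cfc_v h.1]
  have : ε / C < 1 := (div_lt_one (hε.trans hC)).2 hC
  exact norm_cfc_le (by linarith) fun x hx => abs_v hε hC (h.2 x hx).1 (h.2 x hx).2

omit [PartialOrder A] [StarOrderedRing A] [Nontrivial A] in
lemma Bd.exists_inv {ε C : ℝ} {z : A} (h : Bd ε C z) (hε : 0 < ε) :
    ∃ zi : A, zi * z = 1 ∧ z * zi = 1 ∧ ‖zi‖ ≤ ε⁻¹ := by
  have hsa := h.1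
  have hne : ∀ x ∈ spectrum ℝ z, x ≠ 0 := fun x hx => (hε.trans_le (h.2 x hx).1).ne'
  have hc : ContinuousOn (fun x : ℝ => x⁻¹) (spectrum ℝ z) := continuousOn_id.inv₀ hne
  refine ⟨cfc (fun x : ℝ => x⁻¹) z, ?_, ?_, ?_⟩
  · conv_lhs => enter [2]; rw [← cfc_id' ℝ z]
    rw [← cfc_mul _ _ z, ← cfc_const_one ℝ z]
    exact cfc_congr fun x hx => inv_mul_cancel₀ (hne x hx)
  · conv_lhs => enter [1]; rw [← cfc_id' ℝ z]
    rw [← cfc_mul _ _ z, ← cfc_const_one ℝ z]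
    exact cfc_congr fun x hx => mul_inv_cancel₀ (hne x hx)
  · refine norm_cfc_le (by positivity) fun x hx => ?_
    have := (h.2 x hx).1
    rw [Real.norm_of_nonneg (by have := hε.trans_le this; positivity)]
    exact inv_anti₀ hε this

omit [PartialOrder A] [StarOrderedRing A] [Nontrivial A] in
lemma Bd.log_approx {ε C : ℝ} {z : A} (h : Bd ε C z) (hε : 0 < ε) (hC : ε < C) (n : ℕ) :
    ‖cfc Real.log z - (Real.log C • (1 : A)
      - ∑ j ∈ range n, ((j : ℝ) + 1)⁻¹ • (1 - C⁻¹ • z) ^ (j + 1))‖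
      ≤ (1 - ε / C) ^ n / (ε / C) := by
  have hsa := h.1
  have hC0 : 0 < C := hε.trans hC
  have hθ : ε / C < 1 := (div_lt_one hC0).2 hC
  have hθ0 : 0 < ε / C := by positivity
  have hne : ∀ x ∈ spectrum ℝ z, x ≠ 0 := fun x hx => (hε.trans_le (h.2 x hx).1).ne'
  have hc : ContinuousOn Real.log (spectrum ℝ z) := Real.continuousOn_log.mono hne
  have e1 : ∑ j ∈ range n, ((j : ℝ) + 1)⁻¹ • (1 - C⁻¹ • z) ^ (j + 1)
      = cfc (fun x : ℝ => ∑ j ∈ range n, ((j : ℝ) + 1)⁻¹ * (1 - C⁻¹ * x) ^ (j + 1)) z := by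
    have := cfc_sum (fun (j : ℕ) (x : ℝ) => ((j : ℝ) + 1)⁻¹ * (1 - C⁻¹ * x) ^ (j + 1)) z (range n)
      (fun j _ => by fun_prop)
    rw [← Finset.sum_fn, this]
    refine sum_congr rfl fun j _ => ?_
    rw [cfc_const_mul _ _ z, cfc_pow _ _ z, cfc_v hsa]
  have e2 : Real.log C • (1 : A) = cfc (fun _ : ℝ => Real.log C) z := by
    rw [cfc_const _ z, Algebra.algebraMap_eq_smul_one]
  rw [e1, e2, ← cfc_sub _ _ z, ← cfc_sub _ _ z]
  refine norm_cfc_le (by have : 0 ≤ 1 - ε / C := by linarith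
                         positivity) fun x hx => ?_
  have hx0 : 0 < x := hε.trans_le (h.2 x hx).1
  have k1 := abs_v hε hC (h.2 x hx).1 (h.2 x hx).2
  have k2 := Real.abs_log_sub_add_sum_range_le (x := 1 - C⁻¹ * x) (by linarith) n
  have k3 : Real.log (1 - (1 - C⁻¹ * x)) = Real.log x - Real.log C := by
    rw [sub_sub_cancel, Real.log_mul (by positivity) hx0.ne', Real.log_inv]; ring
  rw [k3] at k2
  have k4 : Real.log x - (Real.log C - ∑ j ∈ range n, ((j : ℝ) + 1)⁻¹ * (1 - C⁻¹ * x) ^ (j + 1))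
      = ∑ i ∈ range n, (1 - C⁻¹ * x) ^ (i + 1) / (i + 1) + (Real.log x - Real.log C) := by
    simp_rw [div_eq_inv_mul]; ring
  rw [Real.norm_eq_abs, k4]
  refine k2.trans ?_
  have k5 : |1 - C⁻¹ * x| ^ (n + 1) ≤ (1 - ε / C) ^ n := by
    calc |1 - C⁻¹ * x| ^ (n + 1) ≤ |1 - C⁻¹ * x| ^ n :=
          pow_le_pow_of_le_one (abs_nonneg _) (by linarith) (Nat.le_succ n)
      _ ≤ _ := pow_le_pow_left₀ (abs_nonneg _) k1 n
  exact div_le_div₀ (by have : 0 ≤ 1 - ε / C := by linarith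
                        positivity) k5 hθ0 (by linarith)

omit [PartialOrder A] [StarOrderedRing A] [Nontrivial A] in
lemma deriv_trace_pow (M : Subalgebra ℝ A) (τ : A →L[ℝ] ℝ)
    (htr : ∀ x ∈ M, ∀ y ∈ M, τ (x * y) = τ (y * x)) {v0 w : A} (hv : v0 ∈ M) (hw : w ∈ M)
    (j : ℕ) (t : ℝ) :
    HasDerivAt (fun s : ℝ => ((j : ℝ) + 1)⁻¹ * τ ((v0 + s • w) ^ (j + 1)))
      (τ ((v0 + t • w) ^ j * w)) t := by
  have h1 : HasDerivAt (fun s : ℝ => v0 + s • w) w t := by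
    simpa using ((hasDerivAt_id t).smul_const w).const_add v0
  have h2 := τ.hasFDerivAt.comp_hasDerivAt t (h1.fun_pow' (j + 1))
  have hm : v0 + t • w ∈ M := M.add_mem hv (M.smul_mem hw t)
  have h3 : τ (∑ i ∈ range (j + 1), (v0 + t • w) ^ ((j + 1).pred - i) * w * (v0 + t • w) ^ i)
      = ((j : ℝ) + 1) * τ ((v0 + t • w) ^ j * w) := by
    rw [map_sum, sum_congr rfl (g := fun _ => τ ((v0 + t • w) ^ j * w))]
    · simp
    · intro i hi
      rw [htr _ (M.mul_mem (M.pow_mem hm _) hw) _ (M.pow_mem hm _), ← mul_assoc, ← pow_add]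
      congr 3
      rw [mem_range] at hi
      simp only [Nat.pred_succ]
      omega
  rw [h3] at h2
  have h4 := h2.const_mul ((j : ℝ) + 1)⁻¹
  rw [← mul_assoc, inv_mul_cancel₀ (by positivity), one_mul] at h4
  exact h4

lemma path_approx (M : Subalgebra ℝ A) (τ : A →L[ℝ] ℝ)
    (htr : ∀ x ∈ M, ∀ y ∈ M, τ (x * y) = τ (y * x)) {z0 z1 : A} (h0 : z0 ∈ M) (h1 : z1 ∈ M)
    (p0 : IsStrictlyPositive z0) (p1 : IsStrictlyPositive z1) (η : ℝ) (hη : 0 < η) :
    ∃ S s : ℝ → ℝ, (∀ t, HasDerivAt S (s t) t) ∧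
      (∀ t ∈ Set.Icc (0 : ℝ) 1, ∃ zi : A, zi * (z0 + t • (z1 - z0)) = 1 ∧
        (z0 + t • (z1 - z0)) * zi = 1 ∧ |s t - τ (zi * (z1 - z0))| ≤ η) ∧
      |τ (cfc Real.log z1) - τ (cfc Real.log z0) - (S 1 - S 0)| ≤ η := by
  obtain ⟨ε, C, hε, hC, b0, b1⟩ := exists_Bd p0 p1
  have hC0 : 0 < C := hε.trans hC
  have hθ : ε / C < 1 := (div_lt_one hC0).2 hC
  have hθ0 : 0 < ε / C := by positivity
  set w := z1 - z0 with hw
  set K := ‖τ‖ * (ε⁻¹ * ‖w‖ + 2 / (ε / C)) with hK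
  have hK0 : 0 ≤ K := by positivity
  obtain ⟨n, hn⟩ : ∃ n : ℕ, (1 - ε / C) ^ n < η / (K + 1) :=
    exists_pow_lt_of_lt_one (by positivity) (by linarith)
  have hθn : 0 ≤ (1 - ε / C) ^ n := pow_nonneg (by linarith) n
  have hn' : K * (1 - ε / C) ^ n ≤ η := by
    rw [lt_div_iff₀ (by positivity)] at hn
    nlinarith
  have hwM : w ∈ M := M.sub_mem h1 h0
  have ev : ∀ s : ℝ, (1 - C⁻¹ • z0) + s • (-(C⁻¹ • w)) = 1 - C⁻¹ • (z0 + s • w) := by
    intro s
    rw [smul_add, smul_neg, smul_comm s]; abel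
  refine ⟨fun s => -∑ j ∈ range n, ((j : ℝ) + 1)⁻¹ * τ ((1 - C⁻¹ • (z0 + s • w)) ^ (j + 1)),
    fun t => -∑ j ∈ range n, τ ((1 - C⁻¹ • (z0 + t • w)) ^ j * (-(C⁻¹ • w))), ?_, ?_, ?_⟩
  · intro t
    refine HasDerivAt.fun_neg (HasDerivAt.fun_sum fun j _ => ?_)
    have := deriv_trace_pow M τ htr (M.sub_mem M.one_mem (M.smul_mem h0 C⁻¹))
      (M.neg_mem (M.smul_mem hwM C⁻¹)) j t
    simp only [ev] at this
    exact this
  · intro t ht
    have bt := b0.convex b1 ht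
    rw [← hw] at bt
    set z := z0 + t • w with hz
    obtain ⟨zi, i1, i2, i3⟩ := bt.exists_inv hε
    refine ⟨zi, i1, i2, ?_⟩
    set v := 1 - C⁻¹ • z with hv
    have g1 : (C⁻¹ • z) * ∑ j ∈ range n, v ^ j = 1 - v ^ n := by
      have := mul_neg_geom_sum v n
      rwa [hv, sub_sub_cancel] at this
    have g2 : C⁻¹ • ∑ j ∈ range n, v ^ j = zi * (1 - v ^ n) := by
      rw [← g1, smul_mul_assoc, mul_smul_comm, ← mul_assoc, i1, one_mul]
    have g3 : -∑ j ∈ range n, τ (v ^ j * (-(C⁻¹ • w))) - τ (zi * w) = -τ (zi * v ^ n * w) := by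
      rw [← map_sum, ← sum_mul, mul_neg, map_neg, neg_neg, mul_smul_comm, ← smul_mul_assoc, g2,
        mul_sub zi, mul_one, sub_mul, map_sub]
      ring
    simp only
    rw [g3, abs_neg, ← Real.norm_eq_abs]
    have g4 : ‖v ^ n‖ ≤ (1 - ε / C) ^ n := by
      rcases Nat.eq_zero_or_pos n with rfl | hn0
      · simp
      · exact (norm_pow_le' _ hn0).trans (pow_le_pow_left₀ (norm_nonneg _) (bt.norm_v hε hC) n)
    calc ‖τ (zi * v ^ n * w)‖ ≤ ‖τ‖ * ‖zi * v ^ n * w‖ := τ.le_opNorm _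
      _ ≤ ‖τ‖ * (ε⁻¹ * (1 - ε / C) ^ n * ‖w‖) := by
        gcongr
        refine (norm_mul_le _ _).trans ?_
        gcongr
        refine (norm_mul_le _ _).trans ?_
        gcongr
      _ = ‖τ‖ * (ε⁻¹ * ‖w‖) * (1 - ε / C) ^ n := by ring
      _ ≤ K * (1 - ε / C) ^ n := by
        rw [hK]
        gcongr
        have : 0 ≤ 2 / (ε / C) := by positivity
        linarith
      _ ≤ η := hn'
  · have a0 := b0.log_approx hε hC n
    have a1 := b1.log_approx hε hC n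
    have e0 : z0 + (0 : ℝ) • w = z0 := by simp
    have e1 : z0 + (1 : ℝ) • w = z1 := by simp [hw]
    simp only [e0, e1]
    have t0 := (τ.le_opNorm _).trans (mul_le_mul_of_nonneg_left a0 (norm_nonneg τ))
    have t1 := (τ.le_opNorm _).trans (mul_le_mul_of_nonneg_left a1 (norm_nonneg τ))
    simp only [map_sub, map_sum, map_smul, smul_eq_mul, Real.norm_eq_abs] at t0 t1
    have k : ‖τ‖ * ((1 - ε / C) ^ n / (ε / C)) + ‖τ‖ * ((1 - ε / C) ^ n / (ε / C))
        ≤ K * (1 - ε / C) ^ n := by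
      have : ‖τ‖ * ((1 - ε / C) ^ n / (ε / C)) + ‖τ‖ * ((1 - ε / C) ^ n / (ε / C))
          = ‖τ‖ * (2 / (ε / C)) * (1 - ε / C) ^ n := by ring
      rw [this, hK]
      gcongr
      have : 0 ≤ ε⁻¹ * ‖w‖ := by positivity
      linarith
    rw [abs_le] at t0 t1 ⊢
    constructor <;> linarith [t0.1, t0.2, t1.1, t1.2]

/-- multiplicativity of the Fuglede–Kadison determinant -/
theorem log_conj (M : Subalgebra ℝ A) (τ : A →L[ℝ] ℝ)
    (htr : ∀ x ∈ M, ∀ y ∈ M, τ (x * y) = τ (y * x))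
    (hinv : ∀ x ∈ M, ∀ xi, xi * x = 1 → x * xi = 1 → xi ∈ M)
    {x y : A} (hx : x ∈ M) (hx' : star x ∈ M) (hy : y ∈ M) (hy' : star y ∈ M)
    (ux : IsUnit x) (uy : IsUnit y) :
    τ (cfc Real.log (star (x * y) * (x * y)))
      = τ (cfc Real.log (star x * x)) + τ (cfc Real.log (star y * y)) := by
  set k := star x * x with hk
  have hkM : k ∈ M := M.mul_mem hx' hx
  have pk : IsStrictlyPositive k :=
    CStarAlgebra.isStrictlyPositive_iff_eq_star_mul_self.2 ⟨x, ux, rfl⟩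
  have p1 : IsStrictlyPositive (1 : A) :=
    CStarAlgebra.isStrictlyPositive_iff_eq_star_mul_self.2 ⟨1, isUnit_one, by simp⟩
  have py : IsStrictlyPositive (star y * y) :=
    CStarAlgebra.isStrictlyPositive_iff_eq_star_mul_self.2 ⟨y, uy, rfl⟩
  have e : star (x * y) * (x * y) = star y * k * y := by
    rw [star_mul, hk]; simp only [mul_assoc]
  have pxy : IsStrictlyPositive (star y * k * y) :=
    CStarAlgebra.isStrictlyPositive_iff_eq_star_mul_self.2 ⟨x * y, ux.mul uy, e.symm⟩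
  rw [e]
  have hlog1 : cfc Real.log (1 : A) = 0 := by
    simp
  have key : ∀ η : ℝ, 0 < η → |τ (cfc Real.log (star y * k * y))
      - (τ (cfc Real.log k) + τ (cfc Real.log (star y * y)))| ≤ 4 * η := by
    intro η hη
    obtain ⟨S, s, a1, a2, a3⟩ := path_approx M τ htr M.one_mem hkM p1 pk η hη
    obtain ⟨S', s', b1, b2, b3⟩ := path_approx M τ htr (M.mul_mem hy' hy)
      (M.mul_mem (M.mul_mem hy' hkM) hy) py pxy η hη
    have hb : ∀ t ∈ Set.Icc (0 : ℝ) 1, ‖s' t - s t‖ ≤ 2 * η := by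
      intro t ht
      obtain ⟨ki, i1, i2, i3⟩ := a2 t ht
      obtain ⟨zi, j1, j2, j3⟩ := b2 t ht
      have e1 : star y * y + t • (star y * k * y - star y * y)
          = star y * (1 + t • (k - 1)) * y := by
        simp only [mul_add, add_mul, mul_one, mul_smul_comm, smul_mul_assoc, mul_sub, sub_mul]
      have e2 : star y * k * y - star y * y = star y * (k - 1) * y := by
        simp only [mul_one, mul_sub, sub_mul]
      rw [e1] at j1 j2
      have hzi : zi ∈ M := hinv _ (M.mul_mem (M.mul_mem hy' (M.add_mem M.one_mem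
        (M.smul_mem (M.sub_mem hkM M.one_mem) t))) hy) zi j1 j2
      have e3 : y * zi * star y = ki := by
        have h1 : y * zi * star y * (1 + t • (k - 1)) * y = 1 * y := by
          calc _ = y * (zi * (star y * (1 + t • (k - 1)) * y)) := by simp only [mul_assoc]
            _ = 1 * y := by rw [j1]; simp
        have h2 := uy.mul_right_cancel h1
        calc y * zi * star y = y * zi * star y * ((1 + t • (k - 1)) * ki) := by rw [i2, mul_one]
          _ = ki := by rw [← mul_assoc, h2, one_mul]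
      have e4 : τ (zi * (star y * k * y - star y * y)) = τ (ki * (k - 1)) := by
        rw [e2, ← mul_assoc, htr _ (M.mul_mem hzi (M.mul_mem hy' (M.sub_mem hkM M.one_mem))) _ hy,
          ← e3]
        simp only [mul_assoc]
      rw [e4] at j3
      rw [Real.norm_eq_abs]
      rw [abs_le] at i3 j3 ⊢
      constructor <;> linarith [i3.1, i3.2, j3.1, j3.2]
    have hmv := (convex_Icc (0 : ℝ) 1).norm_image_sub_le_of_norm_hasDerivWithin_le
      (f := fun t => S' t - S t) (f' := fun t => s' t - s t)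
      (fun t _ => ((b1 t).fun_sub (a1 t)).hasDerivWithinAt) hb
      (Set.left_mem_Icc.2 zero_le_one) (Set.right_mem_Icc.2 zero_le_one)
    simp only [sub_zero, norm_one, mul_one, Real.norm_eq_abs] at hmv
    rw [hlog1, map_zero] at a3
    rw [abs_le] at a3 b3 hmv ⊢
    constructor <;> linarith [a3.1, a3.2, b3.1, b3.2, hmv.1, hmv.2]
  refine sub_eq_zero.1 (abs_eq_zero.1 (le_antisymm ?_ (abs_nonneg _)))
  refine le_of_forall_pos_le_add fun η hη => ?_
  have := key (η / 4) (by positivity)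
  linarith

end Crest.Agent.H5.Det
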