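import Crest.Agent.H5.Det.Rep
import Crest.Agent.H5.Det.Alg

set_option autoImplicit false
set_option linter.deprecated false

namespace Crest.Agent.H5.Det

open Finset Crest.AlgebraR.GroupRingDet

/-- invertible up to a nonzero integer -/
def QU {R : Type*} [Ring R] (A : R) : Prop := ∃ B : R, ∃ k : ℤ, k ≠ 0 ∧ A * B = k ∧ B * A = k

lemma QU.of_inv {R : Type*} [Ring R] {A B : R} (h1 : A * B = 1) (h2 : B * A = 1) : QU A :=
  ⟨B, 1, one_ne_zero, by simpa using h1, by simpa using h2⟩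

lemma QU.mul {R : Type*} [Ring R] {A B : R} (hA : QU A) (hB : QU B) : QU (A * B) := by
  obtain ⟨A', k, hk, h1, h2⟩ := hA
  obtain ⟨B', l, hl, h3, h4⟩ := hB
  refine ⟨B' * A', k * l, mul_ne_zero hk hl, ?_, ?_⟩
  · calc A * B * (B' * A') = A * (B * B') * A' := by simp only [mul_assoc]
      _ = A * A' * l := by rw [h3, mul_assoc, (Int.cast_commute l A').eq, mul_assoc]
      _ = _ := by rw [h1]; push_cast; rfl
  · calc B' * A' * (A * B) = B' * (A' * A) * B := by simp only [mul_assoc]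
      _ = k * (B' * B) := by rw [h2, ← (Int.cast_commute k B').eq, mul_assoc]
      _ = _ := by rw [h4]; push_cast; rfl

lemma QU.of_mul_eq {R : Type*} [Ring R] {L Q S : R} (hL : QU L) (hS : QU S) (h : L * Q = S) :
    QU Q := by
  obtain ⟨L', k, hk, h1, h2⟩ := hL
  obtain ⟨S', l, hl, h3, h4⟩ := hS
  refine ⟨k * (S' * L), k * l, mul_ne_zero hk hl, ?_, ?_⟩
  · calc Q * (k * (S' * L)) = (k * Q) * S' * L := by
          rw [(Int.cast_commute k Q).eq]; simp only [mul_assoc]
      _ = L' * (S * S') * L := by rw [← h2, ← h]; simp only [mul_assoc]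
      _ = L' * L * l := by rw [h3, mul_assoc, (Int.cast_commute l L).eq, mul_assoc]
      _ = _ := by rw [h2]; push_cast; rfl
  · calc k * (S' * L) * Q = k * (S' * S) := by rw [← h]; simp only [mul_assoc]
      _ = _ := by rw [h4]; push_cast; rfl

lemma isUnit_of_int {K S : Type*} [Field K] [CharZero K] [Ring S] [Algebra K S] {X Y : S} {k : ℤ}
    (hk : k ≠ 0) (h1 : X * Y = k) (h2 : Y * X = k) : IsUnit X := by
  have hk' : (k : K) ≠ 0 := by exact_mod_cast hk
  have e : (k : K)⁻¹ • (k : S) = 1 := by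
    rw [← map_intCast (algebraMap K S), Algebra.algebraMap_eq_smul_one, smul_smul,
      inv_mul_cancel₀ hk', one_smul]
  exact ⟨⟨X, (k : K)⁻¹ • Y, by rw [mul_smul_comm, h1, e], by rw [smul_mul_assoc, h2, e]⟩, rfl⟩

theorem det_of_ne (G : Type) [Group G] (hG : Group.FG G) (p : ℕ) (hp : p.Prime) (hodd : Odd p)
    (a b : MonoidAlgebra (ZMod p) G) (hab : a * b = 1) (hba : b * a ≠ 1) :
    ∃ (G : Type) (_ : Group G) (n : ℕ) (A : Matrix (Fin n) (Fin n) (MonoidAlgebra ℤ G))
      (H : Type) (_ : NormedAddCommGroup H) (_ : InnerProductSpace ℂ H) (_ : CompleteSpace H)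
      (b : HilbertBasis (Fin n × G) ℂ H) (T : H →L[ℂ] H),
      Group.FG G ∧ 1 ≤ n ∧ IsUnit (A.map (MonoidAlgebra.mapRingHom G (Int.castRingHom ℚ))) ∧
      IsRegularRepOperator b A T ∧ logDet b T < 0 := by
  classical
  obtain ⟨G', _, N, q, t, W, α, β, γ, δ, w1, w2, w3, w4, hfg, hq, ht, hN, hW2, hW0, hWs,
    k1, k2, k3, k4⟩ := alg_main G hG p hp hodd a b hab hba
  obtain ⟨H, _, _, _, ⟨e⟩⟩ : ∃ (H : Type) (_ : NormedAddCommGroup H) (_ : InnerProductSpace ℂ H)
      (_ : CompleteSpace H), Nonempty (HilbertBasis (Fin 3 × G') ℂ H) :=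
    ⟨lp (fun _ : Fin 3 × G' => ℂ) 2, inferInstance, inferInstance, inferInstance, ⟨default⟩⟩
  by_contra hcon
  have hnn : ∀ A : Matrix (Fin 3) (Fin 3) (MonoidAlgebra ℤ G'), QU A → 0 ≤ logDet e (Top e A) := by
    rintro A ⟨B, k, hk, h1, h2⟩
    by_contra hlt
    apply hcon
    refine ⟨G', inferInstance, 3, A, H, inferInstance, inferInstance, inferInstance, e, Top e A,
      hfg, by norm_num, ?_, isRep_Top e A, not_le.1 hlt⟩
    set f := (MonoidAlgebra.mapRingHom G' (Int.castRingHom ℚ)).mapMatrix (m := Fin 3) with hf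
    refine isUnit_of_int (K := ℚ) (X := f A) (Y := f B) hk ?_ ?_
    · rw [← map_mul, h1, map_intCast]
    · rw [← map_mul, h2, map_intCast]
  have hunit : ∀ A : Matrix (Fin 3) (Fin 3) (MonoidAlgebra ℤ G'), QU A → IsUnit (Top e A) := by
    rintro A ⟨B, k, hk, h1, h2⟩
    refine isUnit_of_int (K := ℂ) (Y := Top e B) hk ?_ ?_
    · rw [← Top_mul, h1, Top_intCast]
    · rw [← Top_mul, h2, Top_intCast]
  have : Nontrivial H := ⟨⟨e (0, 1), 0, e.orthonormal.ne_zero _⟩⟩
  have hmul : ∀ A B : Matrix (Fin 3) (Fin 3) (MonoidAlgebra ℤ G'), QU A → QU B →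
      logDet e (Top e (A * B)) = logDet e (Top e A) + logDet e (Top e B) := by
    intro A B hA hB
    rw [Top_mul, logDet_mul e (Top_mem e A) (Top_mem e B) (hunit A hA) (hunit B hB)]
  have hzero : ∀ A B : Matrix (Fin 3) (Fin 3) (MonoidAlgebra ℤ G'), A * B = 1 → B * A = 1 →
      logDet e (Top e A) = 0 := by
    intro A B h1 h2
    have h3 := hmul A B (QU.of_inv h1 h2) (QU.of_inv h2 h1)
    have h4 : Top e (1 : Matrix (Fin 3) (Fin 3) (MonoidAlgebra ℤ G')) = 1 := by
      simpa using Top_intCast e 1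
    rw [h1, h4, logDet_one] at h3
    linarith [hnn A (QU.of_inv h1 h2), hnn B (QU.of_inv h2 h1)]
  set n := (N : MonoidAlgebra ℤ G') with hn
  set T := (t : MonoidAlgebra ℤ G') with hT
  have cn : ∀ x : MonoidAlgebra ℤ G', n * x = x * n := fun x => (Nat.cast_commute N x).eq
  have cT : ∀ x : MonoidAlgebra ℤ G', T * x = x * T := fun x => (Nat.cast_commute t x).eq
  have hn1 : n = 1 + q * T := by rw [hn, hN]; push_cast; rfl
  set u := 1 + T * W with hu
  set v := n - T * W with hv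
  have hTW : T * W * (T * W) = n * (T * W) - T * W := by
    calc T * W * (T * W) = T * (W * T) * W := by simp only [mul_assoc]
      _ = T * T * (W * W) := by rw [← cT W]; simp only [mul_assoc]
      _ = T * (T * q) * W := by rw [hW2]; simp only [mul_assoc]
      _ = (T * q) * (T * W) := by
        conv_lhs => rw [cT q]
        simp only [mul_assoc]
      _ = _ := by rw [hn1, cT q]; noncomm_ring
  have huv : u * v = n := by
    rw [hu, hv, add_mul, one_mul, mul_sub, hTW, cn (T * W)]; abel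
  have hvu : v * u = n := by
    rw [hu, hv, mul_add, mul_one, sub_mul, hTW]; abel
  have hN0 : (N : ℤ) ≠ 0 := by rw [hN]; positivity
  have hNm : ((N : ℤ) : Matrix (Fin 3) (Fin 3) (MonoidAlgebra ℤ G')) = !![n, 0, 0; 0, n, 0; 0, 0, n] := by
    rw [← Matrix.diagonal_intCast]
    ext i j : 2
    fin_cases i <;> fin_cases j <;> simp [hn]
  set U1 : Matrix (Fin 3) (Fin 3) (MonoidAlgebra ℤ G') := !![1, 0, 0; α, 1, 0; δ, 0, 1] with hU1
  set V1 : Matrix (Fin 3) (Fin 3) (MonoidAlgebra ℤ G') := !![1, 0, 0; -α, 1, 0; -δ, 0, 1] with hV1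
  set U2 : Matrix (Fin 3) (Fin 3) (MonoidAlgebra ℤ G') := !![1, β, γ; 0, 1, 0; 0, 0, 1] with hU2
  set V2 : Matrix (Fin 3) (Fin 3) (MonoidAlgebra ℤ G') := !![1, -β, -γ; 0, 1, 0; 0, 0, 1] with hV2
  set P : Matrix (Fin 3) (Fin 3) (MonoidAlgebra ℤ G') := !![0, 1, 0; 1, 0, 0; 0, 0, 1] with hP
  set D1 : Matrix (Fin 3) (Fin 3) (MonoidAlgebra ℤ G') := !![1, 0, 0; 0, n, 0; 0, 0, 1] with hD1
  set D2 : Matrix (Fin 3) (Fin 3) (MonoidAlgebra ℤ G') := !![1, 0, 0; 0, 1, 0; 0, 0, u] with hD2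
  set Q : Matrix (Fin 3) (Fin 3) (MonoidAlgebra ℤ G') :=
    !![n, β, γ; -α, -w1, -w2; -(v * δ), -(v * w3), 1 - v * w4] with hQ
  have a1 : U1 * V1 = 1 := by
    rw [hU1, hV1, Matrix.mul_fin_three, Matrix.one_fin_three]; simp
  have a2 : V1 * U1 = 1 := by
    rw [hU1, hV1, Matrix.mul_fin_three, Matrix.one_fin_three]; simp
  have a3 : U2 * V2 = 1 := by
    rw [hU2, hV2, Matrix.mul_fin_three, Matrix.one_fin_three]; simp
  have a4 : V2 * U2 = 1 := by
    rw [hU2, hV2, Matrix.mul_fin_three, Matrix.one_fin_three]; simp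
  have a5 : P * P = 1 := by
    rw [hP, Matrix.mul_fin_three, Matrix.one_fin_three]; simp
  have q1 : QU D1 := ⟨!![n, 0, 0; 0, 1, 0; 0, 0, n], N, hN0,
    by rw [hD1, hNm, Matrix.mul_fin_three]; simp, by rw [hD1, hNm, Matrix.mul_fin_three]; simp⟩
  have q2 : QU D2 := ⟨!![n, 0, 0; 0, n, 0; 0, 0, v], N, hN0,
    by rw [hD2, hNm, Matrix.mul_fin_three]; simp [huv],
    by rw [hD2, hNm, Matrix.mul_fin_three]; simp [hvu]⟩
  have qU1 := QU.of_inv a1 a2
  have qU2 := QU.of_inv a3 a4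
  have qP := QU.of_inv a5 a5
  have hid : U1 * D1 * D2 * Q = U2 * (P * D1 * P) := by
    have b1 : δ * γ + u * (1 - v * w4) = 1 := by
      rw [k4, mul_sub, ← mul_assoc u, huv, mul_one, hu]; abel
    rw [hU1, hD1, hD2, hQ, hU2, hP]
    simp only [Matrix.mul_fin_three]
    simp [k1, k2, k3, b1, ← mul_assoc, huv, cn α, cn δ]
  have qL := (qU1.mul q1).mul q2
  have qR := qU2.mul ((qP.mul q1).mul qP)
  have qQ := QU.of_mul_eq qL qR hid
  have hd := congrArg (fun A => logDet e (Top e A)) hid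
  rw [hmul _ _ qL qQ, hmul _ _ (qU1.mul q1) q2, hmul _ _ qU1 q1,
    hmul _ _ qU2 ((qP.mul q1).mul qP), hmul _ _ (qP.mul q1) qP, hmul _ _ qP q1,
    hzero _ _ a1 a2, hzero _ _ a3 a4, hzero _ _ a5 a5] at hd
  have hle : logDet e (Top e D2) ≤ 0 := by linarith [hnn Q qQ]
  -- the projection
  have hq' : (q : ℝ) ≠ 0 := by positivity
  set E : H →L[ℂ] H := (q : ℝ)⁻¹ • (eop e 2 2 * piop e W) with hE
  have hc := commute_piop e (commute_eop_Lop e 2 2) W
  have hsW : star (piop e W) = piop e W := by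
    refine star_eq_of e ?_
    rintro ⟨i, h⟩ ⟨j, k⟩
    rw [← inner_conj_symm, inner_piop, inner_piop, ← hWs (h * k⁻¹)]
    by_cases hij : i = j
    · simp [hij]
    · simp [hij, Ne.symm hij]
  have hEs : IsSelfAdjoint E := by
    rw [hE]
    refine (IsSelfAdjoint.all _).smul ?_
    rw [IsSelfAdjoint, star_mul, hsW, star_eop, hc.eq]
  have hE2 : E * E = E := by
    have h1 : eop e 2 2 * piop e W * (eop e 2 2 * piop e W) = (q : ℝ) • (eop e 2 2 * piop e W) := by
      calc _ = eop e 2 2 * (piop e W * eop e 2 2) * piop e W := by simp only [mul_assoc]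
        _ = (eop e 2 2 * eop e 2 2) * piop e (W * W) := by
          rw [← hc.eq, map_mul]; simp only [mul_assoc]
        _ = _ := by
          rw [eop_mul, if_pos rfl, hW2, map_mul, map_natCast, ← nsmul_eq_mul, mul_smul_comm,
            Nat.cast_smul_eq_nsmul]
    rw [hE, smul_mul_smul_comm, h1, smul_smul, mul_assoc, inv_mul_cancel₀ hq', mul_one]
  have hEne : E (e (2, 1)) ≠ 0 := by
    intro h0
    apply hW0
    ext g
    have h1 : (eop e 2 2 * piop e W) (e (2, 1)) = 0 := by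
      rw [hE, ContinuousLinearMap.smul_apply, smul_eq_zero] at h0
      exact h0.resolve_left (inv_ne_zero hq')
    rw [hc.eq, ContinuousLinearMap.mul_apply, eop_apply, if_pos rfl] at h1
    have h2 := inner_piop e 2 2 1 g W
    rw [h1, inner_zero_right, if_pos rfl] at h2
    simpa using h2.symm
  have hD2' : Top e D2 = 1 + ((t : ℝ) * q) • E := by
    have : D2 = Matrix.diagonal ![1, 1, u] := by
      rw [hD2]
      ext i j : 2
      fin_cases i <;> fin_cases j <;> simp
    rw [this, Top_diagonal, ← sum_eop e, Fin.sum_univ_three, Fin.sum_univ_three, hE, smul_smul,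
      mul_assoc, mul_inv_cancel₀ hq', mul_one]
    simp only [Matrix.cons_val_zero, Matrix.cons_val_one, Matrix.cons_val, map_one, mul_one, hu,
      map_add, hT, mul_add, ← nsmul_eq_mul, map_nsmul, mul_smul_comm,
      Nat.cast_smul_eq_nsmul]
    abel
  have hpos := logDet_proj_pos e hEs hE2 2 hEne ((t : ℝ) * q) (by positivity)
  rw [← hD2'] at hpos
  linarith

/-- T4 of the plan of helper6. -/
theorem det_of_not_directly_finite (G : Type) [Group G] (hG : Group.FG G) (p : ℕ) (hp : p.Prime)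
    (hodd : Odd p) (a b c : MonoidAlgebra (ZMod p) G) (hab : a * b = 1) (hac : a * c = 0)
    (hc : c ≠ 0) :
    ∃ (G : Type) (_ : Group G) (n : ℕ) (A : Matrix (Fin n) (Fin n) (MonoidAlgebra ℤ G))
      (H : Type) (_ : NormedAddCommGroup H) (_ : InnerProductSpace ℂ H) (_ : CompleteSpace H)
      (b : HilbertBasis (Fin n × G) ℂ H) (T : H →L[ℂ] H),
      Group.FG G ∧ 1 ≤ n ∧ IsUnit (A.map (MonoidAlgebra.mapRingHom G (Int.castRingHom ℚ))) ∧
      IsRegularRepOperator b A T ∧ logDet b T < 0 :=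
  det_of_ne G hG p hp hodd a b hab fun h => hc (by rw [← one_mul c, ← h, mul_assoc, hac, mul_zero])

end Crest.Agent.H5.Det
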