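import Crest.Agent.H5.Det.FK
import Crest.Prelude.Def_GroupRingDet

set_option autoImplicit false
set_option linter.deprecated false
set_option linter.unusedSectionVars false

namespace Crest.Agent.H5.Det

open Finset Crest.AlgebraR.GroupRingDet

section General
variable {I : Type*} {H : Type*} [NormedAddCommGroup H] [InnerProductSpace ℂ H]
  (b : HilbertBasis I ℂ H)

lemma ext_basis {X Y : H →L[ℂ] H} (h : ∀ x, X (b x) = Y (b x)) : X = Y := by
  refine ContinuousLinearMap.ext_on (s := Set.range b)
    (Submodule.dense_iff_topologicalClosure_eq_top.2 b.dense_span) ?_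
  rintro _ ⟨x, rfl⟩
  exact h x

lemma ext_vec {u v : H} (h : ∀ x, inner ℂ (b x) u = inner ℂ (b x) v) : u = v := by
  apply b.repr.injective
  ext x
  rw [b.repr_apply_apply, b.repr_apply_apply, h]

lemma exists_iso [CompleteSpace H] {v : I → H} (hv : Orthonormal ℂ v) :
    ∃ W : H →L[ℂ] H, ∀ x, W (b x) = v x := by
  classical
  refine ⟨hv.orthogonalFamily.linearIsometry.toContinuousLinearMap ∘L
    b.repr.toLinearIsometry.toContinuousLinearMap, fun x => ?_⟩
  simp [b.repr_self, OrthogonalFamily.linearIsometry_apply_single]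

/-- operator permuting the basis -/
noncomputable def permOp [CompleteSpace H] (σ : I → I) (hσ : Function.Injective σ) : H →L[ℂ] H :=
  (exists_iso b (b.orthonormal.comp σ hσ)).choose

lemma permOp_apply [CompleteSpace H] (σ : I → I) (hσ : Function.Injective σ) (x : I) :
    permOp b σ hσ (b x) = b (σ x) :=
  (exists_iso b (b.orthonormal.comp σ hσ)).choose_spec x

lemma exists_proj [CompleteSpace H] (P : I → Prop) [DecidablePred P] :
    ∃ W : H →L[ℂ] H, ∀ x, W (b x) = if P x then b x else 0 := by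
  classical
  have hv : Orthonormal ℂ (fun x => if P x then -b x else b x) := by
    have := b.orthonormal
    rw [orthonormal_iff_ite] at this ⊢
    intro x y
    by_cases h : x = y
    · subst h
      split_ifs <;> simp_all [b.orthonormal.1 x]
    · split_ifs <;> simp [this, h]
  obtain ⟨S, hS⟩ := exists_iso b hv
  refine ⟨(1 / 2 : ℂ) • (1 - S), fun x => ?_⟩
  simp only [ContinuousLinearMap.smul_apply, ContinuousLinearMap.sub_apply,
    ContinuousLinearMap.one_apply, hS]
  split_ifs
  · rw [sub_neg_eq_add, ← two_smul ℂ, smul_smul]; simp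
  · simp

end General

section Group
variable {G : Type*} [Group G] {n : ℕ} {H : Type*} [NormedAddCommGroup H] [InnerProductSpace ℂ H]
  [CompleteSpace H] (b : HilbertBasis (Fin n × G) ℂ H)

/-- left translation -/
noncomputable def Lop (g : G) : H →L[ℂ] H :=
  permOp b (fun x => (x.1, g * x.2)) (by
    rintro ⟨i, h⟩ ⟨j, k⟩ e
    simpa using e)

lemma Lop_apply (g : G) (i : Fin n) (h : G) : Lop b g (b (i, h)) = b (i, g * h) :=
  permOp_apply b _ _ _

/-- right translation -/
noncomputable def Rop (g : G) : H →L[ℂ] H :=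
  permOp b (fun x => (x.1, x.2 * g)) (by
    rintro ⟨i, h⟩ ⟨j, k⟩ e
    simpa using e)

lemma Rop_apply (g : G) (i : Fin n) (h : G) : Rop b g (b (i, h)) = b (i, h * g) :=
  permOp_apply b _ _ _

lemma exists_eop (i j : Fin n) : ∃ W : H →L[ℂ] H,
    ∀ k h, W (b (k, h)) = if k = j then b (i, h) else 0 := by
  obtain ⟨P, hP⟩ := exists_proj b (fun x => x.1 = j)
  refine ⟨permOp b (fun x => (Equiv.swap i j x.1, x.2)) (by
    rintro ⟨i, h⟩ ⟨j, k⟩ e
    simpa using e) * P, fun k h => ?_⟩
  rw [ContinuousLinearMap.mul_apply, hP]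
  split_ifs with hk
  · rw [permOp_apply]
    simp only at hk
    simp [hk]
  · simp

/-- matrix units -/
noncomputable def eop (i j : Fin n) : H →L[ℂ] H := (exists_eop b i j).choose

lemma eop_apply (i j k : Fin n) (h : G) :
    eop b i j (b (k, h)) = if k = j then b (i, h) else 0 := (exists_eop b i j).choose_spec k h

/-- left regular representation as a monoid hom -/
noncomputable def Lhom : G →* (H →L[ℂ] H) where
  toFun := Lop b
  map_one' := ext_basis b (by rintro ⟨i, h⟩; simp [Lop_apply])
  map_mul' g g' := ext_basis b (by rintro ⟨i, h⟩; simp [Lop_apply, mul_assoc])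

/-- representation of the integral group ring -/
noncomputable def piop : MonoidAlgebra ℤ G →ₐ[ℤ] (H →L[ℂ] H) :=
  MonoidAlgebra.lift ℤ (H →L[ℂ] H) G (Lhom b)

lemma piop_single (g : G) (c : ℤ) : piop b (MonoidAlgebra.single g c) = c • Lop b g := by
  rw [piop, MonoidAlgebra.lift_single]; rfl

lemma commute_piop {X : H →L[ℂ] H} (hX : ∀ g, Commute X (Lop b g)) (x : MonoidAlgebra ℤ G) :
    Commute X (piop b x) := by
  induction x using MonoidAlgebra.induction_linear with
  | zero => simp
  | add x y hx hy => rw [map_add]; exact hx.add_right hy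
  | single g c => rw [piop_single]; exact (hX g).smul_right c

lemma commute_eop_Lop (i j : Fin n) (g : G) : Commute (eop b i j) (Lop b g) :=
  ext_basis b (by
    rintro ⟨k, h⟩
    simp only [ContinuousLinearMap.mul_apply, Lop_apply, eop_apply]
    split_ifs <;> simp [Lop_apply])

lemma commute_Rop_Lop (k g : G) : Commute (Rop b k) (Lop b g) :=
  ext_basis b (by
    rintro ⟨i, h⟩
    simp only [ContinuousLinearMap.mul_apply, Lop_apply, Rop_apply, mul_assoc])

lemma commute_Rop_eop (g : G) (i j : Fin n) : Commute (Rop b g) (eop b i j) :=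
  ext_basis b (by
    rintro ⟨k, h⟩
    simp only [ContinuousLinearMap.mul_apply, Rop_apply, eop_apply]
    split_ifs <;> simp [Rop_apply])

lemma eop_mul (i j k l : Fin n) : eop b i j * eop b k l = if k = j then eop b i l else 0 :=
  ext_basis b (by
    rintro ⟨m, h⟩
    simp only [ContinuousLinearMap.mul_apply, eop_apply]
    split_ifs <;> simp_all [eop_apply])

lemma sum_eop : ∑ i, eop b i i = 1 :=
  ext_basis b (by
    rintro ⟨m, h⟩
    simp [eop_apply])

lemma inner_basis (x y : Fin n × G) [Decidable (x = y)] :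
    inner ℂ (b x) (b y) = if x = y then 1 else 0 := by
  classical
  have := orthonormal_iff_ite.1 b.orthonormal x y
  convert this

lemma star_eq_of {X Y : H →L[ℂ] H}
    (h : ∀ x y, inner ℂ (X (b x)) (b y) = inner ℂ (b x) (Y (b y))) : star X = Y := by
  refine ext_basis b fun y => ext_vec b fun x => ?_
  rw [ContinuousLinearMap.star_eq_adjoint, ContinuousLinearMap.adjoint_inner_right, h]

lemma star_Rop (g : G) : star (Rop b g) = Rop b g⁻¹ := by
  classical
  refine star_eq_of b ?_
  rintro ⟨i, h⟩ ⟨j, k⟩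
  simp only [Rop_apply, inner_basis, Prod.mk.injEq, eq_mul_inv_iff_mul_eq]

lemma star_Lop (g : G) : star (Lop b g) = Lop b g⁻¹ := by
  classical
  refine star_eq_of b ?_
  rintro ⟨i, h⟩ ⟨j, k⟩
  simp only [Lop_apply, inner_basis, Prod.mk.injEq, eq_inv_mul_iff_mul_eq]

lemma star_eop (i j : Fin n) : star (eop b i j) = eop b j i := by
  classical
  refine star_eq_of b ?_
  rintro ⟨k, h⟩ ⟨l, h'⟩
  simp only [eop_apply]
  split_ifs <;> simp_all [inner_basis, eq_comm]

/-- the operator of a matrix -/
noncomputable def Top (A : Matrix (Fin n) (Fin n) (MonoidAlgebra ℤ G)) : H →L[ℂ] H :=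
  ∑ i, ∑ j, eop b i j * piop b (A i j)

lemma Top_mul (A B : Matrix (Fin n) (Fin n) (MonoidAlgebra ℤ G)) :
    Top b (A * B) = Top b A * Top b B := by
  unfold Top
  rw [sum_mul]
  refine sum_congr rfl fun i _ => ?_
  simp only [Matrix.mul_apply, map_sum, mul_sum, sum_mul, map_mul]
  have : ∀ j k l : Fin n, eop b i j * piop b (A i j) * (eop b k l * piop b (B k l))
      = if k = j then eop b i l * (piop b (A i j) * piop b (B k l)) else 0 := by
    intro j k l
    have hc := (commute_piop b (commute_eop_Lop b k l) (A i j)).eq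
    calc _ = eop b i j * (piop b (A i j) * eop b k l) * piop b (B k l) := by
          simp only [mul_assoc]
      _ = (eop b i j * eop b k l) * (piop b (A i j) * piop b (B k l)) := by
          rw [← hc]; simp only [mul_assoc]
      _ = _ := by rw [eop_mul]; split_ifs <;> simp
  simp only [this]
  rw [sum_comm]
  refine sum_congr rfl fun k _ => sum_congr rfl fun l _ => ?_
  simp

lemma Top_diagonal (d : Fin n → MonoidAlgebra ℤ G) :
    Top b (Matrix.diagonal d) = ∑ i, eop b i i * piop b (d i) := by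
  unfold Top
  refine sum_congr rfl fun i _ => ?_
  rw [sum_eq_single i]
  · simp
  · intro j _ hj
    simp [Matrix.diagonal_apply_ne' _ hj]
  · simp

lemma Top_intCast (N : ℤ) :
    Top b (N : Matrix (Fin n) (Fin n) (MonoidAlgebra ℤ G)) = (N : H →L[ℂ] H) := by
  rw [← Matrix.diagonal_intCast, Top_diagonal]
  simp only [map_intCast]
  rw [← sum_mul, sum_eop, one_mul]

lemma inner_piop (i j : Fin n) (g h : G) (x : MonoidAlgebra ℤ G) :
    inner ℂ (b (i, h)) (piop b x (b (j, g))) = if i = j then (x.coeff (h * g⁻¹) : ℂ) else 0 := by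
  classical
  induction x using MonoidAlgebra.induction_linear with
  | zero => simp
  | add x y hx hy =>
    rw [map_add, ContinuousLinearMap.add_apply, inner_add_right, hx, hy]
    split_ifs <;> simp
  | single k c =>
    rw [piop_single, ContinuousLinearMap.smul_apply, Lop_apply, ← Int.cast_smul_eq_zsmul ℂ,
      inner_smul_right, inner_basis, MonoidAlgebra.coeff_single, Finsupp.single_apply]
    by_cases h1 : i = j <;> by_cases h2 : k = h * g⁻¹
    · simp [h1, h2]
    · have : ¬ h = k * g := fun e => h2 (by simp [e])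
      simp [h1, h2, this]
    · simp [h1]
    · simp [h1]

lemma isRep_Top (A : Matrix (Fin n) (Fin n) (MonoidAlgebra ℤ G)) :
    IsRegularRepOperator b A (Top b A) := by
  intro i j g h
  unfold Top
  have : ∀ k l : Fin n, inner ℂ (b (i, h)) ((eop b k l * piop b (A k l)) (b (j, g)))
      = if j = l then if i = k then ((A k l).coeff (h * g⁻¹) : ℂ) else 0 else 0 := by
    intro k l
    rw [(commute_piop b (commute_eop_Lop b k l) (A k l)).eq, ContinuousLinearMap.mul_apply,
      eop_apply]
    split_ifs with h1 h2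
    · rw [inner_piop, if_pos h2]
    · rw [inner_piop, if_neg h2]
    · simp
  simp only [ContinuousLinearMap.sum_apply, inner_sum, this]
  simp

/-- the commutant of the right translations -/
noncomputable def MM : Subalgebra ℝ (H →L[ℂ] H) := Subalgebra.centralizer ℝ (Set.range (Rop b))

lemma mem_MM {X : H →L[ℂ] H} : X ∈ MM b ↔ ∀ g, Commute (Rop b g) X := by
  rw [MM, Subalgebra.mem_centralizer_iff]
  constructor
  · intro h g; exact h _ ⟨g, rfl⟩
  · rintro h _ ⟨g, rfl⟩; exact h g

lemma star_mem_MM {X : H →L[ℂ] H} (h : X ∈ MM b) : star X ∈ MM b := by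
  rw [mem_MM] at h ⊢
  intro g
  have := (h g⁻¹).star_star
  rwa [star_Rop, inv_inv] at this

lemma Top_mem (A : Matrix (Fin n) (Fin n) (MonoidAlgebra ℤ G)) : Top b A ∈ MM b := by
  rw [mem_MM]
  intro g
  exact Commute.sum_right _ _ _ fun i _ => Commute.sum_right _ _ _ fun j _ =>
    (commute_Rop_eop b g i j).mul_right (commute_piop b (commute_Rop_Lop b g) _)

lemma inv_mem_MM {X Y : H →L[ℂ] H} (h : X ∈ MM b) (h1 : Y * X = 1) (h2 : X * Y = 1) :
    Y ∈ MM b := by
  rw [mem_MM] at h ⊢
  intro g
  calc Rop b g * Y = (Y * X) * Rop b g * Y := by rw [h1, one_mul]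
    _ = Y * (X * Rop b g) * Y := by simp only [mul_assoc]
    _ = Y * Rop b g * (X * Y) := by rw [← (h g).eq]; simp only [mul_assoc]
    _ = Y * Rop b g := by rw [h2, mul_one]

lemma coeff_shift {X : H →L[ℂ] H} (hX : X ∈ MM b) (i j : Fin n) (g h k : G) :
    inner ℂ (b (i, h * k)) (X (b (j, g * k))) = inner ℂ (b (i, h)) (X (b (j, g))) := by
  have h1 := (mem_MM b).1 hX k
  have h2 : Rop b k⁻¹ * Rop b k = 1 := ext_basis b (by rintro ⟨i, h⟩; simp [Rop_apply])
  rw [← Rop_apply, ← Rop_apply, ← ContinuousLinearMap.mul_apply X, ← h1.eq,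
    ← ContinuousLinearMap.adjoint_inner_right, ← ContinuousLinearMap.star_eq_adjoint, star_Rop,
    ← ContinuousLinearMap.mul_apply, ← mul_assoc, h2, one_mul]

/-- the trace as a real continuous linear functional -/
noncomputable def tauL : (H →L[ℂ] H) →L[ℝ] ℝ :=
  ∑ i : Fin n, Complex.reCLM ∘L
    ((innerSL ℂ (b (i, 1))) ∘L (ContinuousLinearMap.apply ℂ H (b (i, 1)))).restrictScalars ℝ

lemma tauL_apply (X : H →L[ℂ] H) : tauL b X = opTrace b X := by
  simp [tauL, opTrace]

lemma trace_expand (X Y : H →L[ℂ] H) (i : Fin n) :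
    inner ℂ (b (i, 1)) ((X * Y) (b (i, 1)))
      = ∑ j, ∑' g : G, inner ℂ (b (i, 1)) (X (b (j, g))) * inner ℂ (b (j, g)) (Y (b (i, 1))) := by
  have h1 := b.hasSum_inner_mul_inner (ContinuousLinearMap.adjoint X (b (i, 1))) (Y (b (i, 1)))
  simp only [ContinuousLinearMap.adjoint_inner_left] at h1
  rw [ContinuousLinearMap.mul_apply, ← h1.tsum_eq, h1.summable.tsum_prod, tsum_fintype]

lemma tauL_comm (X : H →L[ℂ] H) (hX : X ∈ MM b) (Y : H →L[ℂ] H) (hY : Y ∈ MM b) :
    tauL b (X * Y) = tauL b (Y * X) := by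
  rw [tauL_apply, tauL_apply, opTrace, opTrace, ← Complex.re_sum, ← Complex.re_sum]
  congr 1
  simp only [trace_expand]
  rw [sum_comm]
  refine sum_congr rfl fun j _ => sum_congr rfl fun i _ => ?_
  rw [← (Equiv.inv G).tsum_eq]
  refine tsum_congr fun g => ?_
  have h1 := coeff_shift b hX i j g⁻¹ 1 g
  have h2 := coeff_shift b hY j i 1 g⁻¹ g
  simp only [one_mul, inv_mul_cancel] at h1 h2
  simp only [Equiv.inv_apply]
  rw [h1, h2, mul_comm]

theorem logDet_mul [Nontrivial H] {X Y : H →L[ℂ] H} (hX : X ∈ MM b) (hY : Y ∈ MM b)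
    (uX : IsUnit X) (uY : IsUnit Y) : logDet b (X * Y) = logDet b X + logDet b Y := by
  have := log_conj (MM b) (tauL b) (tauL_comm b) (fun x hx xi h1 h2 => inv_mem_MM b hx h1 h2)
    hX (star_mem_MM b hX) hY (star_mem_MM b hY) uX uY
  simp only [tauL_apply] at this
  unfold logDet
  rw [this]; ring

theorem logDet_one : logDet b (1 : H →L[ℂ] H) = 0 := by
  simp [logDet, opTrace]

theorem logDet_proj_pos {E : H →L[ℂ] H} (hE : IsSelfAdjoint E) (hE2 : E * E = E) (i : Fin n)
    (hi : E (b (i, 1)) ≠ 0) (r : ℝ) (hr : 0 < r) : 0 < logDet b (1 + r • E) := by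
  have e1 : star (1 + r • E) * (1 + r • E) = cfc (fun x : ℝ => 1 + (2 * r + r ^ 2) * x) E := by
    rw [cfc_add E _ _, cfc_const_one ℝ E, cfc_const_mul_id _ E, star_add, star_one, star_smul,
      hE.star_eq, star_trivial]
    simp only [mul_add, add_mul, one_mul, mul_one, smul_mul_assoc, mul_smul_comm, hE2, smul_smul,
      smul_add, add_smul, two_mul, pow_two]
    abel
  have hsp : spectrum ℝ E ⊆ {0, 1} := IsIdempotentElem.spectrum_subset ℝ hE2
  have hr' : 0 < 2 * r + r ^ 2 := by positivity
  have e2 : cfc Real.log (cfc (fun x : ℝ => 1 + (2 * r + r ^ 2) * x) E)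
      = Real.log (1 + (2 * r + r ^ 2)) • E := by
    rw [← cfc_comp' Real.log _ E (Real.continuousOn_log.mono (by
      rintro _ ⟨x, hx, rfl⟩
      rcases hsp hx with rfl | rfl
      · simp
      · simp only [mul_one, Set.mem_compl_iff, Set.mem_singleton_iff]; positivity)),
      ← cfc_const_mul_id _ E]
    refine cfc_congr fun x hx => ?_
    rcases hsp hx with rfl | rfl <;> simp
  have e3 : ∀ j : Fin n, (inner ℂ (b (j, 1)) (E (b (j, 1)))).re = ‖E (b (j, 1))‖ ^ 2 := by
    intro j
    conv_lhs => rw [← hE2, ContinuousLinearMap.mul_apply, ← ContinuousLinearMap.adjoint_inner_left,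
      ← ContinuousLinearMap.star_eq_adjoint, hE.star_eq]
    rw [inner_self_eq_norm_sq_to_K]
    norm_cast
  unfold logDet
  rw [e1, e2, ← tauL_apply, map_smul, tauL_apply, opTrace]
  simp only [e3, smul_eq_mul]
  have h1 : 0 < Real.log (1 + (2 * r + r ^ 2)) := Real.log_pos (by linarith)
  have h2 : 0 < ∑ j : Fin n, ‖E (b (j, 1))‖ ^ 2 :=
    sum_pos' (fun j _ => by positivity) ⟨i, mem_univ _, by positivity⟩
  positivity

end Group

end Crest.Agent.H5.Det
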